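import Vale.Agent.Lib.P062.Core

namespace Vale.Agent.Lib.P062.CW
open Vale.Agent.Lib.P062.Core
set_option maxRecDepth 100000
set_option linter.all false

noncomputable def D236 : OP := orK (nat_lit 149) (fin (add (start (win (nat_lit 7) (nat_lit 9) (nat_lit 6) (nat_lit 5))) (win (nat_lit 7) (nat_lit 9) (nat_lit 7) (nat_lit 4))))
noncomputable def D27 : OP := win (nat_lit 3) (nat_lit 10) (nat_lit 6) (nat_lit 5)
noncomputable def D28 : OP := win (nat_lit 3) (nat_lit 10) (nat_lit 7) (nat_lit 4)
noncomputable def D26 : OP := win (nat_lit 1) (nat_lit 9) (nat_lit 7) (nat_lit 4)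
noncomputable def D25 : OP := win (nat_lit 1) (nat_lit 9) (nat_lit 8) (nat_lit 5)
noncomputable def D240 : OP := orK (nat_lit 229) (fin (add (start D25) (orK (nat_lit 150) (fin (add (start D26) D236)))))
noncomputable def D10 : OP := win (nat_lit 3) (nat_lit 10) (nat_lit 7) (nat_lit 5)
noncomputable def D282 : OP := orK (nat_lit 171) (fin (add (start D10) (orK (nat_lit 172) (fin (add (add (start (orK (nat_lit 189) (fin (add (start (win (nat_lit 5) (nat_lit 8) (nat_lit 8) (nat_lit 5))) (win (nat_lit 5) (nat_lit 9) (nat_lit 8) (nat_lit 0)))))) (orK (nat_lit 193) (fin (add (start (win (nat_lit 0) (nat_lit 9) (nat_lit 8) (nat_lit 4))) (orK (nat_lit 173) (fin (add (start (win (nat_lit 0) (nat_lit 10) (nat_lit 8) (nat_lit 5))) (orK (nat_lit 153) (fin (add (start (win (nat_lit 4) (nat_lit 9) (nat_lit 7) (nat_lit 4))) (win (nat_lit 4) (nat_lit 10) (nat_lit 7) (nat_lit 5)))))))))))) (orK (nat_lit 192) (fin (add (start (win (nat_lit 0) (nat_lit 9) (nat_lit 8) (nat_lit 5))) (orK (nat_lit 168) (fin (add (start (win (nat_lit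 0) (nat_lit 8) (nat_lit 8) (nat_lit 4))) (orK (nat_lit 188) (fin (add (start (win (nat_lit 5) (nat_lit 7) (nat_lit 8) (nat_lit 5))) (win (nat_lit 5) (nat_lit 8) (nat_lit 8) (nat_lit 4))))))))))))))))
noncomputable def D24 : OP := win (nat_lit 7) (nat_lit 9) (nat_lit 7) (nat_lit 5)
noncomputable def D9 : OP := win (nat_lit 1) (nat_lit 9) (nat_lit 8) (nat_lit 4)
noncomputable def D32 : OP := orK (nat_lit 150) (fin (add (start D26) (orK (nat_lit 151) (fin (add (start D27) D28)))))
noncomputable def D34 : OP := orK (nat_lit 229) (fin (add (start D25) D32))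
noncomputable def D108 : OP := win (nat_lit 6) (nat_lit 10) (nat_lit 8) (nat_lit 4)
noncomputable def D11 : OP := win (nat_lit 3) (nat_lit 10) (nat_lit 8) (nat_lit 4)
noncomputable def D13 : OP := orK (nat_lit 171) (fin (add (start D10) D11))
noncomputable def D8 : OP := win (nat_lit 1) (nat_lit 9) (nat_lit 9) (nat_lit 5)
noncomputable def D42 : OP := win (nat_lit 6) (nat_lit 10) (nat_lit 10) (nat_lit 5)
noncomputable def D41 : OP := win (nat_lit 6) (nat_lit 10) (nat_lit 9) (nat_lit 4)
noncomputable def D40 : OP := win (nat_lit 1) (nat_lit 9) (nat_lit 10) (nat_lit 5)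
noncomputable def D39 : OP := win (nat_lit 1) (nat_lit 9) (nat_lit 9) (nat_lit 4)
noncomputable def D48 : OP := orK (nat_lit 269) (fin (add (start D39) (orK (nat_lit 270) (fin (add (start D40) (orK (nat_lit 271) (fin (add (start D41) D42))))))))
noncomputable def D7 : OP := win (nat_lit 7) (nat_lit 9) (nat_lit 8) (nat_lit 4)
noncomputable def D62 : OP := win (nat_lit 6) (nat_lit 10) (nat_lit 9) (nat_lit 5)
noncomputable def D110 : OP := orK (nat_lit 251) (fin (add (start D108) D62))
noncomputable def D120 : OP := orK (nat_lit 171) (fin (add (start D10) (orK (nat_lit 250) (fin (add (start D11) D110)))))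
noncomputable def D161 : OP := win (nat_lit 3) (nat_lit 9) (nat_lit 10) (nat_lit 0)
noncomputable def D165 : OP := orK (nat_lit 269) (fin (add (start (win (nat_lit 3) (nat_lit 9) (nat_lit 9) (nat_lit 3))) D161))
noncomputable def D139 : OP := win (nat_lit 1) (nat_lit 9) (nat_lit 8) (nat_lit 0)
noncomputable def D163 : OP := orK (nat_lit 269) (fin (add (start (win (nat_lit 1) (nat_lit 9) (nat_lit 9) (nat_lit 3))) D161))
noncomputable def D172 : OP := win (nat_lit 5) (nat_lit 8) (nat_lit 11) (nat_lit 0)
noncomputable def D89 : OP := win (nat_lit 4) (nat_lit 6) (nat_lit 11) (nat_lit 0)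
noncomputable def D148 : OP := win (nat_lit 7) (nat_lit 9) (nat_lit 10) (nat_lit 0)
noncomputable def D83 : OP := win (nat_lit 0) (nat_lit 7) (nat_lit 11) (nat_lit 1)
noncomputable def D88 : OP := win (nat_lit 2) (nat_lit 6) (nat_lit 11) (nat_lit 5)
noncomputable def D3 : AP := fin (add (start (win (nat_lit 6) (nat_lit 9) (nat_lit 6) (nat_lit 0))) (win (nat_lit 6) (nat_lit 9) (nat_lit 7) (nat_lit 3)))
noncomputable def D23 : OP := orK (nat_lit 189) (fin (add (start (win (nat_lit 7) (nat_lit 9) (nat_lit 8) (nat_lit 0))) (orK (nat_lit 149) D3)))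
noncomputable def D6 : OP := orK (nat_lit 149) (fin (add (start (win (nat_lit 7) (nat_lit 9) (nat_lit 7) (nat_lit 3))) (orK (nat_lit 189) D3)))
noncomputable def D49 : OP := win (nat_lit 7) (nat_lit 9) (nat_lit 8) (nat_lit 5)
noncomputable def D52 : OP := orK (nat_lit 189) (fin (add (start D49) (win (nat_lit 7) (nat_lit 9) (nat_lit 9) (nat_lit 4))))
noncomputable def D302 : AP := fin (add (add (add (add (add (add (add (start (orK (nat_lit 169) (fin (add (add (start (orK (nat_lit 250) (fin (add (start D7) (orK (nat_lit 249) (fin (add (start D8) (orK (nat_lit 170) (fin (add (start D9) D13)))))))))) D23) (orK (nat_lit 170) (fin (add (start D24) D34))))))) (orK (nat_lit 250) (fin (add (add (add (start D48) (orK (nat_lit 271) (fin (add (start D41) (orK (nat_lit 270) (fin (add (start D42) D52))))))) (orK (nat_lit 269) (fin (add (start D39) (orK (nat_lit 270) (fin (add (start D40) D52))))))) (orK (nat_lit 189) (fin (add (start D49) (orK (nat_lit 191) (fin (add (start (win (nat_lit 3) (nat_lit 10) (nat_lit 8) (nat_lit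 5))) (orK (nat_lit 249) (fin (add (start D8) (orK (nat_lit 251) (fin (add (start D62) (orK (nat_lit 229) (fin (add (add (start (orK (nat_lit 228) (fin (add (start (win (nat_lit 0) (nat_lit 7) (nat_lit 11) (nat_lit 0))) (win (nat_lit 2) (nat_lit 8) (nat_lit 11) (nat_lit 0)))))) (orK (nat_lit 252) (fin (add (start (win (nat_lit 2) (nat_lit 9) (nat_lit 11) (nat_lit 0))) (orK (nat_lit 232) (fin (add (start (win (nat_lit 4) (nat_lit 9) (nat_lit 11) (nat_lit 5))) (orK (nat_lit 248) (fin (add (start (win (nat_lit 4) (nat_lit 8) (nat_lit 11) (nat_lit 4))) (orK (nat_lit 209) (fin (add (start (win (nat_lit 1) (nat_lit 8) (nat_lit 9) (nat_lit 5))) (orK (nat_lit 208) (fin (add (start (win (nat_lit 4) (nat_lit 7) (nat_lit 9) (nat_lit 0))) (win (nat_lit 5) (nat_lit 8) (nat_lit 9) (nat_lit 0)))))))))))))))))) (orK (nat_lit 227) (fin (add (start D83) (orK (nat_lit 248) (fin (add (start (orK (nat_lit 268) (fin (add (start (win (nat_lit 1) (nat_lit 8) (nat_lit 9) (nat_lit 1))) (win (nat_lit 5) (nat_lit 7) (nat_lit 12) (nat_lit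 5)))))) (orK (nat_lit 247) (fin (add (start D88) D89)))))))))))))))))))))))))))) (orK (nat_lit 169) (fin (add (add (add (start D6) (orK (nat_lit 250) (fin (add (start D7) (orK (nat_lit 171) (fin (add (start D11) (orK (nat_lit 170) (fin (add (start D10) D110)))))))))) D23) (orK (nat_lit 170) (fin (add (start D24) D120))))))) (orK (nat_lit 169) (fin (add (add (add (start D6) (orK (nat_lit 250) (fin (add (start D7) (orK (nat_lit 249) (fin (add (start D8) (orK (nat_lit 170) (fin (add (start D9) D110)))))))))) D23) (orK (nat_lit 170) (fin (add (start D24) (orK (nat_lit 249) (fin (add (start D9) (orK (nat_lit 250) (fin (add (start D8) D110))))))))))))) (orK (nat_lit 229) (fin (add (add (add (start (orK (nat_lit 170) (fin (add (add (start D32) D120) (orK (nat_lit 251) (fin (add (start D108) (orK (nat_lit 250) (fin (add (start D62) (orK (nat_lit 209) (fin (add (start (win (nat_lit 1) (nat_lit 9) (nat_lit 7) (nat_lit 0))) (orK (nat_lit 227) (fin (add (start D83) (orK (nat_lit 270) (fin (add (start (win (nat_lit 7) (nat_lit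 9) (nat_lit 9) (nat_lit 5))) D148))))))))))))))))))) (orK (nat_lit 249) (fin (add (add (start D163) D165) (orK (nat_lit 248) (fin (add (add (add (start (orK (nat_lit 231) (fin (add (start D172) (orK (nat_lit 251) (fin (add (start (orK (nat_lit 271) (fin (add (start (win (nat_lit 6) (nat_lit 10) (nat_lit 9) (nat_lit 3))) (win (nat_lit 7) (nat_lit 10) (nat_lit 10) (nat_lit 0)))))) (orK (nat_lit 228) (fin (add (start (win (nat_lit 0) (nat_lit 8) (nat_lit 11) (nat_lit 5))) (orK (nat_lit 207) (fin (add (start (win (nat_lit 2) (nat_lit 7) (nat_lit 10) (nat_lit 4))) (orK (nat_lit 227) (fin (add (start (win (nat_lit 2) (nat_lit 6) (nat_lit 10) (nat_lit 5))) (orK (nat_lit 226) (fin (add (start (win (nat_lit 0) (nat_lit 5) (nat_lit 11) (nat_lit 0))) (win (nat_lit 4) (nat_lit 6) (nat_lit 10) (nat_lit 4))))))))))))))))))))) (orK (nat_lit 247) (fin (add (start D89) (orK (nat_lit 231) (fin (add (start (win (nat_lit 4) (nat_lit 7) (nat_lit 11) (nat_lit 3))) D172))))))) (orK (nat_lit 247) (fin (add (start D89) (orK (nat_lit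 250) (fin (add (start (orK (nat_lit 227) (fin (add (start D88) (orK (nat_lit 251) (fin (add (start D83) (orK (nat_lit 267) (fin (add (start (win (nat_lit 5) (nat_lit 6) (nat_lit 12) (nat_lit 5))) (win (nat_lit 5) (nat_lit 7) (nat_lit 12) (nat_lit 4)))))))))))) (orK (nat_lit 270) (fin (add (start (win (nat_lit 0) (nat_lit 7) (nat_lit 12) (nat_lit 5))) (orK (nat_lit 209) (fin (add (start (win (nat_lit 6) (nat_lit 9) (nat_lit 9) (nat_lit 0))) D148))))))))))))) (orK (nat_lit 247) (fin (add (start D89) (orK (nat_lit 231) (fin (add (start (win (nat_lit 5) (nat_lit 7) (nat_lit 11) (nat_lit 3))) D172))))))))))))) (orK (nat_lit 249) (fin (add (start D139) D163)))) (orK (nat_lit 249) (fin (add (start D139) D165))))))) (orK (nat_lit 170) (fin (add (start D120) D240)))) (orK (nat_lit 169) (fin (add (add (start (orK (nat_lit 250) (fin (add (start D7) D48)))) (orK (nat_lit 170) (fin (add (start D24) (orK (nat_lit 249) (fin (add (start D9) (orK (nat_lit 250) (fin (add (start D8) D13)))))))))) (orK (nat_lit 170) (fin (add (start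 D24) (orK (nat_lit 251) (fin (add (start D108) D282)))))))))) (orK (nat_lit 170) (fin (add (add (add (start D34) (orK (nat_lit 231) (fin (add (start (win (nat_lit 6) (nat_lit 10) (nat_lit 8) (nat_lit 5))) (orK (nat_lit 249) (fin (add (start D9) (orK (nat_lit 169) (fin (add (start D24) D282)))))))))) D240) (orK (nat_lit 151) (fin (add (start D28) (orK (nat_lit 150) (fin (add (start D27) D236))))))))))
noncomputable def D303 : OP := orK (nat_lit 190) D302

end Vale.Agent.Lib.P062.CW
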